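import Mathlib
import Vale.Agent.Lib.P060.Defs
import Vale.Agent.Lib.P060.Dense

namespace Vale.Agent.Results.P060.DenseGraphs

open Vale.Agent.Lib.P060

/-- Hadwiger's conjecture for dense graphs with a large matching of non-edges.

Let `G` be a finite simple graph in which every vertex has at most `k` non-neighbours
(other than itself), and suppose `G` has `m ≥ 2 k ^ 2` pairwise disjoint pairs `{a i, b i}` of
distinct non-adjacent vertices. Then for every `t`, if `G` has no `K_(t+1)` minor then `G` is
`t`-colourable. -/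
theorem result {V : Type*} [Fintype V] (G : SimpleGraph V) (k m : ℕ)
    (hk : ∀ v : V, Set.ncard {w : V | w ≠ v ∧ ¬ G.Adj v w} ≤ k)
    (a b : Fin m → V) (hab : ∀ i, a i ≠ b i ∧ ¬ G.Adj (a i) (b i))
    (hinj : Function.Injective (Sum.elim a b)) (hm : 2 * k ^ 2 ≤ m) (t : ℕ)
    (ht : ¬ HasCliqueMinor G (t + 1)) : G.Colorable t :=
  hadwiger_of_dense G k m hk a b hab hinj hm t ht

end Vale.Agent.Results.P060.DenseGraphs
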