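import Mathlib
import Vale.Agent.Lib.P060.Defs
import Vale.Agent.Lib.P060.Explicit

namespace Vale.Agent.Results.P060.DenseMinorBounds

open Vale.Agent.Lib.P060

/-- Explicit minor and colouring bounds for dense graphs with a large matching of non-edges.

Let `G` be a finite simple graph on `|V|` vertices in which every vertex has at most `k`
non-neighbours (other than itself), and suppose `G` has `m ≥ 2 k ^ 2` pairwise disjoint pairs
`{a i, b i}` of distinct non-adjacent vertices. Then

1. `G` is `(|V| - m)`-colourable;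
2. `G` has a clique minor on `(|V| + 1) / 2` vertices, that is, on `⌈|V| / 2⌉` vertices;
3. if `G` has no family of `m + 1` pairwise disjoint pairs of distinct non-adjacent vertices,
   then `G` has a clique minor on `|V| - m` vertices;
4. for every `t`, if `G` has no `K_(t+1)` minor then `G` is `t`-colourable. -/
theorem result {V : Type*} [Fintype V] (G : SimpleGraph V) (k m : ℕ)
    (hk : ∀ v : V, Set.ncard {w : V | w ≠ v ∧ ¬ G.Adj v w} ≤ k)
    (a b : Fin m → V) (hab : ∀ i, a i ≠ b i ∧ ¬ G.Adj (a i) (b i))
    (hinj : Function.Injective (Sum.elim a b)) (hm : 2 * k ^ 2 ≤ m) :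
    G.Colorable (Fintype.card V - m) ∧
    HasCliqueMinor G ((Fintype.card V + 1) / 2) ∧
    ((¬ ∃ a' b' : Fin (m + 1) → V, (∀ i, a' i ≠ b' i ∧ ¬ G.Adj (a' i) (b' i)) ∧
        Function.Injective (Sum.elim a' b')) → HasCliqueMinor G (Fintype.card V - m)) ∧
    (∀ t : ℕ, ¬ HasCliqueMinor G (t + 1) → G.Colorable t) :=
  dense_explicit G k m hk a b hab hinj hm

end Vale.Agent.Results.P060.DenseMinorBounds
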